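import Vale.Agent.P362.Main

namespace Vale.Agent.Results.P362.Exp4

theorem result : Vale.Agent.P362.alphaTot = 4 := Vale.Agent.P362.alphaTot_eq

end Vale.Agent.Results.P362.Exp4
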